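import Vale.Agent.P215Z.Wall.Main.Val

/-!
# P215: the universal critical value and its derivatives
-/

noncomputable section
namespace Vale.Agent.P215Z.W3
open MvPolynomial Classical CurveSys

section univ
variable {C G : Type} (mk : C → G)

/-- products of two variables with the same mark -/
def NW : Ideal (MvPolynomial (C × I2) ℚ) :=
  Ideal.span {f | ∃ v w : C × I2, mk v.1 = mk w.1 ∧ f = X v * X w}

/-- the universal ring -/
abbrev Ow : Type := MvPolynomial (C × I2) ℚ ⧸ NW mk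

/-- the variables in the universal ring -/
def xw (v : C × I2) : Ow mk := Ideal.Quotient.mk _ (X v)

theorem xw_mul {v w : C × I2} (h : mk v.1 = mk w.1) : xw mk v * xw mk w = 0 := by
  rw [xw, xw, ← map_mul, Ideal.Quotient.eq_zero_iff_mem]
  exact Ideal.subset_span ⟨v, w, h, rfl⟩

/-- the universal ideals -/
def mw [Finite C] : Marked (Ow mk) G where
  a := Ideal.span (Set.range (xw mk))
  ii g := Ideal.span (xw mk '' {v | mk v.1 = g})
  nil := (Ideal.FG.isNilpotent_iff_le_nilradical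
    (Submodule.fg_span (Set.finite_range _))).2 (Ideal.span_le.2 (by
      rintro _ ⟨v, rfl⟩
      exact ⟨2, by rw [pow_two]; exact xw_mul mk rfl⟩))
  sq g := by
    rw [Ideal.span_mul_span', Ideal.span_eq_bot]
    rintro _ ⟨_, ⟨v, hv, rfl⟩, _, ⟨w, hw, rfl⟩, rfl⟩
    exact xw_mul mk (Eq.trans hv (Eq.symm hw))
  le g := Ideal.span_mono (Set.image_subset_range _ _)

end univ

theorem aeval_eps {σ R R' : Type} [CommRing R] [Algebra ℚ R] [CommRing R'] [Algebra ℚ R']
    (χ : R →+* R') {ε : R'} (hε : ε * ε = 0) (x : σ → R) (v : σ) {y : σ → R'}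
    (h1 : y v = χ (x v) + ε) (h2 : ∀ w, w ≠ v → y w = χ (x w)) (φ : MvPolynomial σ ℚ) :
    aeval y φ = χ (aeval x φ) + χ (aeval x (pderiv v φ)) * ε := by
  induction φ using MvPolynomial.induction_on with
  | C q => simp only [aeval_C, pderiv_C, map_zero, zero_mul, add_zero, RingHom.map_rat_algebraMap]
  | add p q hp hq =>
    simp only [map_add, hp, hq]
    ring
  | mul_X p w hp =>
    by_cases h : w = v
    · subst h
      simp only [map_mul, hp, aeval_X, pderiv_mul, pderiv_X_self, map_add, h1, mul_one]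
      linear_combination χ (aeval x (pderiv w p)) * hε
    · simp only [map_mul, hp, aeval_X, pderiv_mul, pderiv_X_of_ne h, map_add, h2 w h, map_zero]
      ring

theorem exists_eps {O : Type} [CommRing O] [Algebra ℚ O] (I : Ideal O) :
    ∃ (O' : Type) (_ : CommRing O') (_ : Algebra ℚ O') (χ : O →+* O') (ε : O'), ε * ε = 0 ∧
      (∀ x, χ x * ε = 0 → x ∈ I) ∧ ∀ x ∈ I, χ x = 0 := by
  refine ⟨DualNumber (O ⧸ I), inferInstance, inferInstance,
    (TrivSqZeroExt.inlHom _ _).comp (Ideal.Quotient.mk I), DualNumber.eps, DualNumber.eps_mul_eps,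
    fun x hx => ?_, fun x hx => ?_⟩
  · have h := congrArg TrivSqZeroExt.snd hx
    simpa [Ideal.Quotient.eq_zero_iff_mem] using h
  · rw [RingHom.comp_apply, Ideal.Quotient.eq_zero_iff_mem.2 hx, map_zero]

variable {C G : Type} [Fintype C] {S : CurveSys C} {n : ℕ} {mk : C → G}

/-- the polynomial gives the critical values -/
def Pot (S : CurveSys C) (n : ℕ) (mk : C → G) (φ : MvPolynomial (C × I2) ℚ) : Prop :=
  ∀ (O : Type) [CommRing O] [Algebra ℚ O] (m : Marked O G) (X : C → M2 O) (A : F1 O)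
    (b : Ideal O), (∀ c, InC (m.ii (mk c)) (X c)) → Good1 (KdQ n) A → In1 (KdQ n) m.a A →
    S.Crit n A X b → S.SS n A X - evX X φ ∈ b ^ 2

variable (hn : 0 < n) (hS : S.Valid n mk)
include hn hS

theorem exists_pot : ∃ φ, Pot S n mk φ := by
  obtain ⟨B, h1, h2, h3⟩ := exists_crit hn hS (mw mk) (X := fun c a a' => xw mk (c, (a, a')))
    fun c a a' => Ideal.subset_span ⟨(c, (a, a')), rfl, rfl⟩
  obtain ⟨φ, hφ⟩ := Ideal.Quotient.mk_surjective (S.SS n B fun c a a' => xw mk (c, (a, a')))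
  refine ⟨φ, fun O _ _ m Y A b hY hA hA' hc => ?_⟩
  obtain ⟨χ, hχ⟩ : ∃ χ : Ow mk →+* O, ∀ f, χ (Ideal.Quotient.mk _ f) = evX Y f := by
    refine ⟨Ideal.Quotient.lift _ (evX Y : MvPolynomial (C × I2) ℚ →+* O) fun f hf => ?_,
      fun _ => rfl⟩
    refine (Ideal.span_le (I := RingHom.ker (evX Y : MvPolynomial (C × I2) ℚ →+* O))).2 ?_ hf
    rintro _ ⟨v, w, h, rfl⟩
    have a1 := Ideal.mul_mem_mul (hY v.1 v.2.1 v.2.2) (hY w.1 w.2.1 w.2.2)
    rw [h, m.sq] at a1
    simpa [evX] using a1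
  have a1 : ∀ v : C × I2, χ (xw mk v) = Y v.1 v.2.1 v.2.2 := fun v => by
    rw [xw, hχ, evX, aeval_X]
  have a2 : (fun c => Matrix.map (fun a a' => xw mk (c, (a, a'))) χ) = Y :=
    funext fun c => Matrix.ext fun a a' => a1 (c, (a, a'))
  have a3 : (mw mk).a.map χ ≤ m.a := by
    rw [Ideal.map_le_iff_le_comap]
    refine Ideal.span_le.2 ?_
    rintro _ ⟨v, rfl⟩
    change χ _ ∈ m.a
    rw [a1]
    exact m.le _ (hY _ _ _)
  have a4 := crit_map χ hn hS (mw mk) h2 (MW_map χ hn hS (mw mk) h2 _) h3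
  have a5 := SS_map χ hn hS (mw mk) h2 fun c a a' => xw mk (c, (a, a'))
  rw [a2] at a4 a5
  rw [← hχ, hφ, ← a5]
  exact val hn hS m hY (h1.map1 χ) (in1_map χ a3 h2) a4 hA hA' hc

section
variable {O : Type} [CommRing O] [Algebra ℚ O] (m : Marked O G) {Y : C → M2 O} {A : F1 O}
  {b : Ideal O} (hY : ∀ c, InC (m.ii (mk c)) (Y c)) (hA : Good1 (KdQ n) A)
  (hA' : In1 (KdQ n) m.a A) (hc : S.Crit n A Y b)

include hY hA' hc in
theorem crit_add {E : C → M2 O} (hE : ∀ c, InC b (E c)) : S.Crit n A (fun c => Y c + E c) b := by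
  refine ⟨fun τ l hτ i j hi hj => ?_, fun c => ?_⟩
  · have a1 := Jw_congr hn hS m hY hA' hA' (b := ⊥) (b' := b)
      (fun p _ i _ => by rw [sub_self]; exact InC.zero) (X' := fun c => Y c + E c)
      (fun c => by rw [sub_add_cancel_left]; exact (hE c).neg) τ l i j
    rw [Ideal.mul_bot, sup_bot_eq] at a1
    have a2 := InC.add (hc.1 τ l hτ i j hi hj) a1
    rwa [sub_add_sub_cancel] at a2
  · have a1 := (hc.2 c).add (((hE c).mul_right (at0U (S.H A c) : M2 O)).sub
      ((hE c).mul_left (at0U (S.H A c) : M2 O)))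
    have a2 : ∀ x y z : M2 O, ⁅x + y, z⁆ = ⁅x, z⁆ + (y * z - z * y) := fun x y z => by
      simp only [Ring.lie_def]
      noncomm_ring
    exact (a2 (Y c) (E c) _).symm ▸ a1

omit hn hS in
theorem SS_add (A : F1 O) (Y : C → M2 O) (c : C) (a a' : Fin 2) (ε : O) :
    S.SS n A (fun c' => Y c' + if c' = c then Matrix.single a' a ε else 0) =
      S.SS n A Y - 2 * (itg (lg (S.H A c : MM O) a a') * ε) := by
  have a1 : ∀ x y : M2 O, cst (x + y) = cst x + cst y := fun x y =>
    Matrix.ext fun i j => map_add MvPolynomial.C _ _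
  have a2 : ∑ c', itg (Matrix.trace (cst (if c' = c then Matrix.single a' a ε else 0) *
      lg (S.H A c' : MM O))) = itg (lg (S.H A c : MM O) a a') * ε := by
    rw [Finset.sum_eq_single c (fun c' _ h => ?_) fun h => absurd (Finset.mem_univ c) h]
    · rw [if_pos rfl, cst, Matrix.map_single, Matrix.trace_single_mul, smul_eq_mul, ← smul_eq_C_mul,
        map_smul, smul_eq_mul, mul_comm]
    · rw [if_neg h, cst, Matrix.map_zero _ (map_zero _), zero_mul, Matrix.trace_zero, map_zero]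
  simp only [SS, a1, add_mul, Matrix.trace_add, map_add, Finset.sum_add_distrib, a2]
  ring

omit hn hS in
theorem itg_lg {a b : Ideal O} (ha : IsNilpotent a) {x : MM O} (f1 : InI a (x - 1))
    (h : InI b (x - cst (at0 x))) (i j : Fin 2) : itg (lg x i j) - lg (at0 x) i j ∈ b := by
  have f2 : InC a (at0 x - 1) := by
    have a1 := f1.at0
    have a2 : at0 (1 : MM O) = 1 := Matrix.map_one _ (map_zero _) (map_one _)
    rwa [at0_sub, a2] at a1
  obtain ⟨f, hf⟩ : ∃ f : M2 O →+* MM O, ∀ y, f y = cst y :=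
    ⟨RingHom.mapMatrix (MvPolynomial.C : O →+* RR O), fun _ => rfl⟩
  have f4 := (inI_cst _ _).2 f2
  rw [← hf, map_sub, map_one, hf] at f4
  have f5 := itg_mem (lg_congr (nil_map _ ha) f1 f4 h i j)
  rwa [← hf, ← map_lg f _ (f2.isNilpotent ha), hf, Matrix.sub_apply, map_sub, cst, Matrix.map_apply,
    itg_C] at f5

omit hn hS [Algebra ℚ O] in
theorem exists_marked {O' : Type} [CommRing O'] (χ : O →+* O') {ε : O'} (e1 : ε * ε = 0) (g : G)
    (e2 : ∀ x ∈ m.ii g, χ x = 0) : ∃ m' : Marked O' G, m.a.map χ ≤ m'.a ∧ ε ∈ m'.ii g ∧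
      ∀ g', ∀ x ∈ m.ii g', χ x ∈ m'.ii g' := by
  have s1 : Ideal.span {ε} * Ideal.span {ε} = ⊥ := by
    rw [Ideal.span_singleton_mul_span_singleton, e1, Ideal.span_singleton_eq_bot]
  refine ⟨⟨m.a.map χ ⊔ Ideal.span {ε}, fun g' => if g' = g then Ideal.span {ε} else (m.ii g').map χ,
    (Commute.all _ _).isNilpotent_add (nil_map χ m.nil) ⟨2, by rw [pow_two]; exact s1⟩,
    fun g' => ?_, fun g' => ?_⟩, le_sup_left, ?_, fun g' x hx => ?_⟩
  · split_ifs
    · exact s1
    · rw [← Ideal.map_mul, m.sq, Ideal.map_bot]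
  · split_ifs
    · exact le_sup_right
    · exact (Ideal.map_mono (m.le g')).trans le_sup_left
  · simp only [if_true]
    exact Ideal.mem_span_singleton_self ε
  · dsimp only
    split_ifs with h
    · rw [e2 x (h ▸ hx)]
      exact zero_mem _
    · exact Ideal.mem_map_of_mem χ hx

include hY hA hA' hc in
theorem pot_der {φ : MvPolynomial (C × I2) ℚ} (hφ : Pot S n mk φ) (c : C) (a a' : Fin 2) :
    evX Y (pderiv (c, (a', a)) φ) + 2 * lg (at0U (S.H A c) : M2 O) a a' ∈ b ⊔ m.ii (mk c) := by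
  obtain ⟨O', _, _, χ, ε, e1, e2, e3⟩ := exists_eps (b ⊔ m.ii (mk c))
  obtain ⟨m', m1, m2, m3⟩ := exists_marked m χ e1 (mk c) fun x hx => e3 x (Ideal.mem_sup_right hx)
  have E1 : ∀ (I : Ideal O') c', (c' = c → ε ∈ I) →
      InC I (if c' = c then Matrix.single a' a ε else 0) := fun I c' h i j => by
    split_ifs with h1
    · rw [Matrix.single_apply]
      split_ifs
      · exact h h1
      · exact zero_mem _
    · exact zero_mem _
  have y1 : ∀ c', InC (m'.ii (mk c')) ((Y c').map χ) := fun c' i j => m3 _ _ (hY c' i j)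
  have b1 := in1_map χ m1 hA'
  have b2 : b.map χ ≤ Ideal.span {ε} := Ideal.map_le_iff_le_comap.2 fun x hx => by
    rw [Ideal.mem_comap, e3 x (Ideal.mem_sup_left hx)]
    exact zero_mem _
  have d1 := hφ O' m' _ _ _ (fun c' => (y1 c').add (E1 _ c' fun h => h ▸ m2)) (hA.map1 χ) b1
    (crit_add hn hS m' y1 b1 (crit_map χ hn hS m hA' b2 hc)
      fun c' => E1 _ c' fun _ => Ideal.mem_span_singleton_self ε)
  have d2 : evX (fun c' => (Y c').map χ + if c' = c then Matrix.single a' a ε else 0) φ =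
      χ (evX Y φ) + χ (evX Y (pderiv (c, (a', a)) φ)) * ε := by
    refine aeval_eps χ e1 _ _ (by simp) ?_ φ
    rintro ⟨c', i, j⟩ h
    by_cases h1 : c' = c
    · have h2 : ¬ (a' = i ∧ a = j) := fun h2 => h (by rw [h1, h2.1, h2.2])
      simp [h1, h2]
    · simp [h1]
  have d3 : itg (lg (S.H (map1 χ A) c : MM O') a a') = χ (itg (lg (S.H A c : MM O) a a')) := by
    rw [lgH_map χ hn hS m hA', ← itg_map]
    rfl
  rw [pow_two, Ideal.span_singleton_mul_span_singleton, e1, Ideal.mem_span_singleton, zero_dvd_iff,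
    d2, SS_add, SS_map χ hn hS m hA', d3] at d1
  have d4 : χ (S.SS n A Y - evX Y φ) = 0 :=
    e3 _ (Ideal.mem_sup_left (Ideal.pow_le_self two_ne_zero (hφ O m Y A b hY hA hA' hc)))
  have d5 := e2 (evX Y (pderiv (c, (a', a)) φ) + 2 * itg (lg (S.H A c : MM O) a a')) (by
    rw [map_sub] at d4
    rw [map_add, map_mul, map_ofNat]
    linear_combination d4 - d1)
  have f6 := sub_mem d5 (Ideal.mul_mem_left _ 2
    (itg_lg m.nil (H_mem hn hS m hA' c) (H_shift hn hS m hY hA hA' hc.1 c) a a'))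
  rwa [mul_sub, add_sub_assoc, sub_sub_cancel] at f6

end

end Vale.Agent.P215Z.W3
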