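import Vale.Agent.P215Z.Wall.Exist
import Vale.Agent.P215Z.Wall.Stat

/-!
# P215: base change of the wall data
-/

noncomputable section
namespace Vale.Agent.P215Z.W3
open MvPolynomial Classical
variable {O O' : Type} [CommRing O] [Algebra ℚ O] [CommRing O'] [Algebra ℚ O'] (χ : O →+* O')

/-- base change of matrices, as a ring homomorphism -/
def mapR : MM O →+* MM O' := RingHom.mapMatrix (MvPolynomial.map χ)

/-- base change of units -/
def mapU : (MM O)ˣ →* (MM O')ˣ := Units.map (mapR χ).toMonoidHom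

omit [Algebra ℚ O] [Algebra ℚ O']

theorem mapM_eq (x : MM O) : mapM χ x = mapR χ x := rfl

theorem mapR_cst (y : M2 O) : mapR χ (cst y) = cst (y.map χ) :=
  Matrix.ext fun a a' => map_C χ (y a a')

theorem at0_mapR (x : MM O) : at0 (mapR χ x) = (at0 x).map χ := by
  ext a a'
  exact constantCoeff_map χ _

theorem map_hat (τ σ : Pt) (d : Fin 4) : MvPolynomial.map χ (hat τ σ d : RR O) = hat τ σ d := by
  unfold hat
  split_ifs <;> simp

theorem mapR_smul (f : RR O) (x : MM O) : mapR χ (f • x) = MvPolynomial.map χ f • mapR χ x :=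
  Matrix.ext fun a a' => map_mul (MvPolynomial.map χ) f (x a a')

theorem mapR_Ad (g : (MM O)ˣ) (x : MM O) : mapR χ (Ad g x) = Ad (mapU χ g) (mapR χ x) := by
  rw [Ad, Ad, map_mul, map_mul, ← map_inv]
  rfl

theorem trace_mapR (x : MM O) : (mapR χ x).trace = MvPolynomial.map χ x.trace := by
  simp [Matrix.trace, mapR]

theorem lie_map (x y : M2 O) : (⁅x, y⁆ : M2 O).map χ = ⁅x.map χ, y.map χ⁆ := by
  change RingHom.mapMatrix χ _ = ⁅RingHom.mapMatrix χ x, RingHom.mapMatrix χ y⁆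
  rw [Ring.lie_def, Ring.lie_def, map_sub, map_mul, map_mul]

theorem holN_ext {α Γ : Type} [Group Γ] {U U' : α → α → Γ} {x : ℕ → α} {k : ℕ}
    (h : ∀ i < k, U (x i) (x (i + 1)) = U' (x i) (x (i + 1))) : holN U x k = holN U' x k := by
  induction k with
  | zero => rfl
  | succ k ih => rw [holN, holN, ih fun i hi => h i (by omega), h k (by omega)]

theorem holL_ext {α Γ : Type} [Group Γ] {U U' : α → α → Γ} {r : α → α → Prop}
    (h : ∀ x y, r x y → U x y = U' x y) : ∀ {l : List α}, l.IsChain r → holL U l = holL U' l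
  | [], _ => rfl
  | [_], _ => rfl
  | x :: y :: l, hl => by
    rw [List.isChain_cons_cons] at hl
    rw [holL, holL, h x y hl.1, holL_ext h hl.2]

theorem padj_mem {K : Set Pt} (hK : Cx K) {v v' : Pt} (h : PAdj K v v') : v ∈ K ∧ v' ∈ K := by
  obtain ⟨h1, h2, k, h3⟩ := h
  have h4 : ∀ j, (v' j = v j ∨ v' j = v j + 2 ∨ v' j = v j - 2) := fun j => by
    by_cases hj : j = k
    · subst hj
      rcases h3 with rfl | rfl <;> simp [ee]
    · rcases h3 with rfl | rfl <;> simp [ee, hj]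
  refine ⟨hK.isFace h2 fun j => ?_, hK.isFace h2 fun j => ?_⟩ <;>
  · have h5 := h4 j
    have h6 := h1 j
    simp only [midp, Int.odd_iff, Int.even_iff, abs_eq (zero_le_one' ℤ)] at h6 ⊢
    omega

theorem nil_map {a : Ideal O} (ha : IsNilpotent a) : IsNilpotent (a.map χ) := by
  obtain ⟨k, hk⟩ := ha
  exact ⟨k, by rw [← Ideal.map_pow, hk]; exact Ideal.map_bot⟩

theorem inI_inf {b b' : Ideal O} {x : MM O} (h : InI b x) (h' : InI b' x) : InI (b ⊓ b') x :=
  fun a a' => mem_map_C_iff.2 fun s => ⟨mem_map_C_iff.1 (h a a') s, mem_map_C_iff.1 (h' a a') s⟩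

theorem inI_top (x : MM O) : InI ⊤ x := fun _ _ => mem_map_C_iff.2 fun _ => trivial

end Vale.Agent.P215Z.W3

namespace Vale.Agent.P215Z.W3
open MvPolynomial Classical CurveSys
variable {O O' : Type} [CommRing O] [Algebra ℚ O] [CommRing O'] [Algebra ℚ O'] (χ : O →+* O')

section
variable {a : Ideal O} (ha : IsNilpotent a) {K : Set Pt} (hK : Cx K) {A : F1 O} (hA : In1 K a A)
include ha hA

theorem step_mapU {p p' : Pt} (hp : p ∈ K) (hp' : p' ∈ K) :
    step (map1 χ A) p p' = mapU χ (step A p p') := Units.ext (step_map ha χ hA hp hp')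

theorem holN_mapU {x : ℕ → Pt} {k : ℕ} (hx : ∀ i ≤ k, x i ∈ K) :
    holN (step (map1 χ A)) x k = mapU χ (holN (step A) x k) := by
  rw [map_holN]
  exact holN_ext fun i hi => step_mapU χ ha hA (hx i hi.le) (hx _ hi)

include hK

theorem Up_mapU {p : Pt} (hp : p ∈ K) : Up (map1 χ A) p = mapU χ (Up A p) :=
  holN_mapU χ ha hA fun i _ => hK.isFace hp (isFace_upTo p i)

theorem holL_mapU {l : List Pt} (hl : l.IsChain (PAdj K)) :
    holL (pe (map1 χ A)) l = mapU χ (holL (pe A) l) := by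
  rw [map_holL]
  refine holL_ext (fun v v' h => ?_) hl
  rw [pe, pe, map_mul, step_mapU χ ha hA (padj_mem hK h).1 h.2.1,
    step_mapU χ ha hA h.2.1 (padj_mem hK h).2]

end

omit [Algebra ℚ O'] in
theorem in1_map {K : Set Pt} {a : Ideal O} {a' : Ideal O'} (h : a.map χ ≤ a') {A : F1 O}
    (hA : In1 K a A) : In1 K a' (map1 χ A) := fun p hp i hi => (hA p hp i hi).mapM χ h

variable {C G : Type} [Fintype C] {S : CurveSys C} {n : ℕ}
  {mk : C → G} (hn : 0 < n) (hS : S.Valid n mk) (m : Marked O G) {A : F1 O}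
  (hA : In1 (KdQ n) m.a A)
include hn hS hA

theorem whis_map (c : C) : S.whis (map1 χ A) c = mapU χ (S.whis A c) := by
  rw [whis, whis, map_mul, holL_mapU χ m.nil (cx_KdQ n) hA (hS.prim_chain c),
    Up_mapU χ m.nil (cx_KdQ n) hA (pt_mem hn hS c (Nat.zero_le _))]

theorem G_map (c : C) {k : ℕ} (hk : k ≤ S.per c) : S.G (map1 χ A) c k = mapU χ (S.G A c k) := by
  rw [CurveSys.G, CurveSys.G, map_mul, whis_map χ hn hS m hA,
    holN_mapU χ m.nil hA fun i hi => pt_mem hn hS c (hi.trans hk)]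

theorem H_map (c : C) : S.H (map1 χ A) c = mapU χ (S.H A c) := by
  rw [H, H, map_mul, map_inv, whis_map χ hn hS m hA, G_map χ hn hS m hA c le_rfl]

theorem H0_map (c : C) :
    (at0U (S.H (map1 χ A) c) : M2 O') = (at0U (S.H A c) : M2 O).map χ := by
  rw [H_map χ hn hS m hA]
  exact at0_mapR χ _

theorem xi_map (X : C → M2 O) (c : C) {k : ℕ} (hk : k ≤ S.per c) :
    S.xi (map1 χ A) (fun c => (X c).map χ) c k = mapR χ (S.xi A X c k) := by
  rw [xi, xi, mapR_Ad, mapR_cst, G_map χ hn hS m hA c hk]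

theorem Jw_map (X : C → M2 O) (τ : Pt) (l i j : Fin 4) :
    S.Jw (map1 χ A) (fun c => (X c).map χ) τ l i j = mapR χ (S.Jw A X τ l i j) := by
  simp only [Jw, map_sum]
  refine Finset.sum_congr rfl fun c _ => Finset.sum_congr rfl fun k hk =>
    Finset.sum_congr rfl fun d _ => ?_
  have h1 := Finset.mem_range.1 hk
  rw [map_zsmul, map_add, xi_map χ hn hS m hA X c h1.le, xi_map χ hn hS m hA X c h1]
  simp only [apply_ite (mapR χ), mapR_smul, map_hat, map_zero]

theorem lgH_map (c : C) : lg (S.H (map1 χ A) c : MM O') = mapR χ (lg (S.H A c : MM O)) := by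
  rw [H_map χ hn hS m hA, map_lg _ _ (InC.isNilpotent (nil_map _ m.nil) (H_mem hn hS m hA c))]
  rfl

theorem SS_map (X : C → M2 O) : S.SS n (map1 χ A) (fun c => (X c).map χ) = χ (S.SS n A X) := by
  simp only [SS, CS_map, lgH_map χ hn hS m hA, ← mapR_cst, ← map_mul, trace_mapR, itg_map, map_sub]
  rw [map_mul, map_sum, map_ofNat]

theorem crit_map {X : C → M2 O} {b : Ideal O} {b' : Ideal O'} (hb : b.map χ ≤ b')
    (h : S.Crit n A X b) : S.Crit n (map1 χ A) (fun c => (X c).map χ) b' := by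
  refine ⟨fun τ l hτ i j hi hj => ?_, fun c a a' => ?_⟩
  · rw [Jw_map χ hn hS m hA, curv_map, mapM_eq, ← map_sub]
    exact (h.1 τ l hτ i j hi hj).mapM χ hb
  · rw [H0_map χ hn hS m hA, ← lie_map]
    exact hb (Ideal.mem_map_of_mem χ (h.2 c a a'))

theorem MW_map (X : C → M2 O) : (S.MW A X).map χ ≤ S.MW (map1 χ A) fun c => (X c).map χ := by
  rw [MW, Ideal.map_span]
  refine Ideal.span_mono ?_
  rintro _ ⟨_, ⟨c, a, a', rfl⟩, rfl⟩
  exact ⟨c, a, a', by rw [H0_map χ hn hS m hA, ← lie_map]; rfl⟩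

end Vale.Agent.P215Z.W3
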