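import Vale.Agent.P215Z.Wall.Main.Nat

/-!
# P215: the critical value does not depend on the critical connection
-/

noncomputable section
namespace Vale.Agent.P215Z.W3
open MvPolynomial Classical CurveSys
variable {O : Type} [CommRing O] [Algebra ℚ O]

theorem inI_lie {a e : Ideal O} {x y : MM O} (hx : InI a x) (hy : InI e y) :
    InI (a * e) ⁅x, y⁆ ∧ InI (a * e) ⁅y, x⁆ := by
  have h1 := hx.mul hy
  have h2 := hy.mul hx
  rw [mul_comm] at h2
  exact ⟨InC.sub h1 h2, InC.sub h2 h1⟩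

omit [Algebra ℚ O] in
theorem at0_sub (x y : MM O) : at0 (x - y) = at0 x - at0 y :=
  Matrix.ext fun a a' => map_sub constantCoeff (x a a') (y a a')

theorem zero_mem_KdQ (n : ℕ) : (0 : Pt) ∈ KdQ n :=
  ⟨fun _ => ⟨le_rfl, by positivity⟩, 0, Or.inl rfl⟩

theorem ne_of_odd {n : ℕ} {τ : Pt} {l i : Fin 4} (h : Is3 n τ l) (hi : Odd (τ i)) : i ≠ l := by
  rintro rfl
  rw [Int.odd_iff] at hi
  have := h.1
  omega

variable {C G : Type} [Fintype C] {S : CurveSys C} {n : ℕ}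
  {mk : C → G} (hn : 0 < n) (hS : S.Valid n mk) (m : Marked O G) {X : C → M2 O}
  (hX : ∀ c, InC (m.ii (mk c)) (X c)) {B : F1 O} (hB : Good1 (KdQ n) B) (hB' : In1 (KdQ n) m.a B)
  (hcB : S.Crit n B X (S.MW B X)) {b : Ideal O}
include hn hS hX hB hB' hcB

theorem val_step {A : F1 O} (hA : Good1 (KdQ n) A) (hA' : In1 (KdQ n) m.a A)
    (hc : S.Crit n A X b) {e : Ideal O} (he : In1 (KdQ n) e (B - A)) :
    ∃ A', Good1 (KdQ n) A' ∧ In1 (KdQ n) m.a A' ∧ S.Crit n A' X b ∧ S.SS n A' X = S.SS n A X ∧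
      In1 (KdQ n) (b ⊔ m.a * e) (B - A') := by
  have hM : S.MW B X ≤ b ⊔ m.a * e := by
    refine Ideal.span_le.2 ?_
    rintro _ ⟨c, a, a', rfl⟩
    have h1 := (H_congr hn hS m hB' hA' he c).at0
    rw [at0_sub] at h1
    have h2 := (hX c).mono (m.le _)
    have h3 := h1.mul h2
    rw [mul_comm] at h3
    have h4 := ((hc.2 c).mono le_sup_left).add (((h2.mul h1).sub h3).mono le_sup_right)
    have h5 : (⁅X c, (at0U (S.H B c) : M2 O)⁆ : M2 O) = ⁅X c, (at0U (S.H A c) : M2 O)⁆ +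
        (X c * (at0 (S.H B c : MM O) - at0 (S.H A c : MM O)) -
          (at0 (S.H B c : MM O) - at0 (S.H A c : MM O)) * X c) := by
      simp only [coe_at0U, Ring.lie_def]
      noncomm_ring
    rw [h5]
    exact h4 a a'
  have h1 : In2 (KdQ n) (b ⊔ m.a * e) (curv B - curv A) := fun p hp i j hi hj => by
    obtain ⟨τ, l, hτ, hf⟩ := exists_is3 hn hp
    refine (hB.curv.sub hA.curv).inI_face (cx_KdQ n) hτ.mem hf (fun i j hi hj => ?_) i j hi hj
    have a1 := (hcB.1 τ l hτ i j (ne_of_odd hτ hi) (ne_of_odd hτ hj)).mono hM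
    have a2 := (hc.1 τ l hτ i j (ne_of_odd hτ hi) (ne_of_odd hτ hj)).mono
      (le_sup_left (b := m.a * e))
    have a3 := Jw_congr hn hS m hX hB' hA' he (b' := b) (X' := X)
      (fun c => by rw [sub_self]; exact InC.zero) τ l i j
    have a4 : (curv B - curv A) τ i j = curv B τ i j - S.Jw B X τ l i j +
        (S.Jw B X τ l i j - S.Jw A X τ l i j) - (curv A τ i j - S.Jw A X τ l i j) := by
      simp only [Pi.sub_apply]
      abel
    rw [a4]
    exact InC.sub (InC.add a1 a3) a2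
  have ha : In1 (KdQ n) m.a (B - A) := fun p hp i hi => InC.sub (hB' p hp i hi) (hA' p hp i hi)
  have h2 : In2 (KdQ n) (b ⊔ m.a * e) (dd1 (B - A)) := fun p hp i j hi hj => by
    have a1 := curv_sub B (B - A) p i j
    rw [sub_sub_cancel] at a1
    have a2 : dd1 (B - A) p i j = (curv B - curv A) p i j - (⁅B p i, (B - A) p j⁆ +
        ⁅(B - A) p i, B p j⁆ - ⁅(B - A) p i, (B - A) p j⁆) := by
      rw [Pi.sub_apply (curv B), Pi.sub_apply (curv B p), Pi.sub_apply (curv B p i), a1]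
      abel
    rw [a2]
    exact InC.sub (h1 p hp i j hi hj) (InI.mono le_sup_right (InC.sub (InC.add
      (inI_lie (hB' p hp i hi) (he p hp j hj)).1 (inI_lie (hB' p hp j hj) (he p hp i hi)).2)
      (inI_lie (ha p hp i hi) (he p hp j hj)).1))
  obtain ⟨g, g1, g2, g3, g4⟩ := p1_dQ hn (hB.sub hA) (k := m.a ⊓ e)
    (fun p hp i hi => inI_inf (ha p hp i hi) (he p hp i hi)) h2
  have g5 : ∀ p ∈ KdQ n, InI m.a (g p) := fun p hp => (g2 p hp).mono inf_le_left
  have g6 : ∀ p ∈ KdQ n, InI e (g p) := fun p hp => (g2 p hp).mono inf_le_right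
  choose! u hu using fun p hp => exists_unit m.nil (g5 p hp)
  have u1 : Good0 (KdQ n) fun p => (u p : MM O) :=
    ⟨fun p hp j hj => by rw [hu p hp, pd_add, pd_one, g1.indep p hp j hj, add_zero],
      fun p hp k c hk => by
        rw [hu p hp, hu _ (cx_KdQ n p hp k c hk), evM_add, evM_one, g1.compat p hp k c hk]⟩
  have u2 : ∀ p ∈ KdQ n, u p ∈ UG m.a := fun p hp => by
    rw [mem_UG, hu p hp, add_sub_cancel_left]
    exact g5 p hp
  have u3 : u 0 = 1 := Units.ext (by rw [hu 0 (zero_mem_KdQ n), g3, add_zero, Units.val_one])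
  obtain ⟨s1, -, s3⟩ := SS_gauge hn hS m (X := X) hA hA' u1 u2 u3
  refine ⟨gauge A u, hA.gauge u1, hA'.gauge m.nil u2, s3 b hc, s1, fun p hp i hi => ?_⟩
  have a1 : (↑(u p)⁻¹ : MM O) * (1 + g p) = 1 := by rw [← hu p hp, Units.inv_mul]
  have a2 : (B - gauge A u) p i = (B - A - dd0 g) p i +
      (↑(u p)⁻¹ : MM O) * (⁅g p, A p i⁆ + g p * pd i (g p)) := by
    have a3 : (↑(u p)⁻¹ : MM O) * (⁅g p, A p i⁆ + g p * pd i (g p)) =
        ↑(u p)⁻¹ * (1 + g p) * A p i - ↑(u p)⁻¹ * A p i * (1 + g p) +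
          ↑(u p)⁻¹ * (1 + g p) * pd i (g p) - ↑(u p)⁻¹ * pd i (g p) := by
      rw [Ring.lie_def]
      noncomm_ring
    rw [a3, a1]
    simp only [Pi.sub_apply, gauge, Ad, dd0, hu p hp, pd_add, pd_one, zero_add, one_mul]
    abel
  rw [a2]
  exact InC.add (g4 p hp i hi) (InC.mul_left (InI.mono le_sup_right (InC.add
    (inI_lie (hA' p hp i hi) (g6 p hp)).2 ((g5 p hp).mul ((g6 p hp).pd i)))) _)

theorem val {A : F1 O} (hA : Good1 (KdQ n) A) (hA' : In1 (KdQ n) m.a A) (hc : S.Crit n A X b) :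
    S.SS n A X - S.SS n B X ∈ b ^ 2 := by
  have h : ∀ j : ℕ, ∃ A', Good1 (KdQ n) A' ∧ In1 (KdQ n) m.a A' ∧ S.Crit n A' X b ∧
      S.SS n A' X = S.SS n A X ∧ In1 (KdQ n) (b ⊔ m.a ^ j) (B - A') := by
    intro j
    induction j with
    | zero =>
      refine ⟨A, hA, hA', hc, rfl, fun p _ i _ => ?_⟩
      rw [pow_zero, Ideal.one_eq_top, sup_top_eq]
      exact inI_top _
    | succ j ih =>
      obtain ⟨A', a1, a2, a3, a4, a5⟩ := ih
      obtain ⟨A'', b1, b2, b3, b4, b5⟩ := val_step hn hS m hX hB hB' hcB a1 a2 a3 a5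
      refine ⟨A'', b1, b2, b3, b4.trans a4, fun p hp i hi => (b5 p hp i hi).mono ?_⟩
      rw [Ideal.mul_sup, ← pow_succ']
      exact sup_le le_sup_left (sup_le_sup_right Ideal.mul_le_right _)
  obtain ⟨j, hj⟩ := m.nil
  obtain ⟨A', a1, a2, a3, a4, a5⟩ := h j
  rw [hj, Ideal.zero_eq_bot, sup_bot_eq] at a5
  rw [← a4, ← neg_sub]
  exact neg_mem (SS_stat hn hS m hX a1 a2 a3 hB hB' a5)

end Vale.Agent.P215Z.W3
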